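import Vale.Agent.P301W.Rows
import Vale.Agent.P301Z.Sk
import Vale.Agent.P301Z.Lat.Asm
import Vale.Agent.P301.H450.Metric

/-!
# P301W: assembly
-/

open scoped Manifold ContDiff Topology ComplexConjugate Matrix
open Vale.Agent.P272.K Vale.Agent.P299.IX Vale.Agent.P299.IX.Fock
open Vale.Agent.P281Z (Mf)
open Vale.Agent.P281Z.Hg Vale.Agent.P301Z.Lat Vale.Agent.P301Z
open Vale.Agent.P301.H599 (IsSymplectic SameClass Smooth ddc LineBundle IsMetric curvature)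
open Vale.Agent.P272.K.INT (IsClosedForm IsDensity intX)

noncomputable section

namespace Vale.Agent.P301W

/-- the conclusion -/
def Concl (n d : ℕ) (X : Type) [TopologicalSpace X] [ChartedSpace (Cm d) X] : Prop :=
  (∃ (r : ℕ) (b : Module.Basis (Fin r) ℝ (H2 d X)),
    ∀ c, Integral c ↔ c ∈ Submodule.span ℤ (Set.range b)) ∧
  (∃ q : QuadraticForm ℝ (H2 d X), IsBBF n q) ∧
  ∀ (ι : Type) (L : LineBundle d X ι), (∃! c, IsC1 L c) ∧ ∀ c, IsC1 L c → Integral c ∧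
    (c ∈ NefCone d X → ((∃ q : QuadraticForm ℝ (H2 d X), Fujiki n q ∧ q c = 0) ∨
      ∃ a : Z2 d X, cls a = c ∧ IsIntegral (fun e z => top (a.1 e z)) 0) → Semiample L)

namespace As

variable {d : ℕ} {V : Mf d}

theorem int_congr {D D' : Chart d V.X → Cm d → ℝ} {I : ℝ} (h : IsIntegral D I)
    (e : ∀ e x, At e x → D' e (e x) = D e (e x)) : IsIntegral D' I := by
  intro N c ρ hc h1 h2 h3
  rw [← h N c ρ hc h1 h2 h3]
  refine Finset.sum_congr rfl fun i _ => ?_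
  refine MeasureTheory.setIntegral_congr_fun (c i).open_target.measurableSet fun z hz => ?_
  have := e (c i) _ ⟨hc i, (c i).map_target hz⟩
  rw [(c i).right_inv hz] at this
  simp only [this]

theorem same {ι : Type} {L : LineBundle d V.X ι} {ρ ρ' : ι → V.X → ℝ} (h11 : D11)
    (h : IsMetric L ρ) (h' : IsMetric L ρ') : SameClass (curvature L ρ') (curvature L ρ) := by
  have hev : ∀ i (e : Chart d V.X) x, At e x → x ∈ L.U i →
      (fun y => ρ' (L.cover (e.symm y)).choose (e.symm y) - ρ (L.cover (e.symm y)).choose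
        (e.symm y)) =ᶠ[𝓝 (e x)] fun y => ρ' i (e.symm y) - ρ i (e.symm y) := by
    intro i e x hx hi
    have h1 : ∀ᶠ y in 𝓝 (e x), e.symm y ∈ L.U i := by
      refine (e.continuousAt_symm (e.map_source hx.2)).eventually ?_
      rw [e.left_inv hx.2]
      exact (L.isOpen i).mem_nhds hi
    filter_upwards [h1] with y hy
    rw [h.change _ i _ (L.cover _).choose_spec hy, h'.change _ i _ (L.cover _).choose_spec hy]
    ring
  refine ⟨fun x => ρ' (L.cover x).choose x - ρ (L.cover x).choose x, fun e x hx => ?_,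
    fun e x hx => ?_⟩
  all_goals obtain ⟨i, hi⟩ := L.cover x
  · exact ((h'.smooth i e x hx hi).sub (h.smooth i e x hx hi)).congr_of_eventuallyEq
      (hev i e x hx hi)
  · rw [(h11.curv h).2 i e x hx hi, (h11.curv h').2 i e x hx hi, ddc, ddc, ddc,
      C2.cHess_congr (hev i e x hx hi), C2.cHess_sub ((h'.smooth i e x hx hi).of_le INT.two_le_inf)
      ((h.smooth i e x hx hi).of_le INT.two_le_inf)]
    abel

theorem is11 (hF : F11) {w : Fld V} {a : Z2 d V.X} {u : Fs V} (hr : Rp a u) : Is11 w u ↔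
    ∀ e x, At e x → ∀ u v : Cm d, (a.1 e (e x) ![u, v] : ℂ) =
      Complex.I * ∑ j, ∑ k, w e (e x) j k * (u j * conj (v k) - v j * conj (u k)) :=
  forall₃_congr fun e x hx => by
    rw [← hF d, hr e x hx]
    rfl

end As

open As in
theorem asm (h : LAT) (nefl : NEFL) (tl : TL) (hF : F11) (hT : TOPP) (rep : REP) (iso : ISO)
    (we1 : WE1) (we2 : WE2) (sg : SIGN) (n : ℕ) (hn : 0 < n) (V : Mf (n + n))
    (sc : SimplyConnectedSpace V.X) (w s : Fld V) (hs : IsSymplectic (n + n) V.X w s)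
    (syz : ∀ (ι : Type) (L : LineBundle (n + n) V.X ι) (ρ : ι → V.X → ℝ), IsMetric L ρ →
      Nef w L ρ → Isotropic L ρ → Semiample L) : Concl n (n + n) V.X := by
  obtain ⟨r, B, m, fuj, p, k, H⟩ := h.ex V sc w s hn hs
  obtain ⟨Φ, hΦ⟩ := iso tl rep _ r V m
  obtain ⟨r1, r2, r3⟩ := rep tl _ V
  obtain ⟨κ, hκ, hT⟩ := hT (n + n)
  obtain ⟨Q, hQ, s1, s2⟩ := sg n r B
  set Y : MK B := ⟨V, sc, m, fuj⟩
  have sur : ∀ c : H2 (n + n) V.X, ∃ a, cls a = c := Submodule.Quotient.mk_surjective _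
  have hI : ∀ c : H2 (n + n) V.X, Integral c ↔ ∃ l : Fin r → ℤ, Φ c = zr l := by
    intro c
    constructor
    · rintro ⟨a, rfl, ha⟩
      obtain ⟨u, hu⟩ := r1 a
      obtain ⟨l, hl⟩ := (m.int u (r3 a u hu).1).1 (we1 tl _ V a u hu ha)
      refine ⟨l, rc_inj ?_⟩
      rw [← hΦ a u hu, hl]
      funext i
      simp [rc, Lat.zr]
    · rintro ⟨l, hl⟩
      obtain ⟨a, rfl⟩ := sur c
      obtain ⟨u, hu⟩ := r1 a
      refine ⟨a, rfl, we2 tl _ V a u hu ((m.int u (r3 a u hu).1).2 ⟨l, ?_⟩)⟩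
      rw [hΦ a u hu, hl]
      funext i
      simp [rc, Lat.zr]
  have hC : ∀ (a : Fld V) c, R11 a → (ClassOf a c ↔ Y.C11 a (Φ c)) := by
    intro a c ha
    constructor
    · rintro ⟨b, rfl, hb⟩
      obtain ⟨u, hu⟩ := r1 b
      exact ⟨ha, u, (is11 hF hu).2 hb, (r3 b u hu).1, hΦ b u hu⟩
    · rintro ⟨-, u, h1, h2, h3⟩
      obtain ⟨b, hb⟩ := r2 u h2 (h.d11.cl ha h1).2
      exact ⟨b, Φ.injective (rc_inj ((hΦ b u hb).symm.trans h3)), (is11 hF hb).1 h1⟩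
  have hV : ∀ a : Z2 (n + n) V.X, IsIntegral (fun e z => top (a.1 e z))
      (κ * B.C * Q (Φ (cls a)) ^ n) := by
    intro a
    obtain ⟨u, hu⟩ := r1 a
    have h1 := ((h.vol.dens u).1.const_mul κ).isIntegral
    have h2 := congrArg Complex.re (fuj u (r3 a u hu).1)
    rw [hΦ a u hu, qC_rc, ← hQ, ← Complex.ofReal_pow, ← Complex.ofReal_mul, Complex.ofReal_re, Vol,
      itg] at h2
    simp only [Complex.add_re, Complex.ofReal_re, Complex.mul_re, Complex.I_re, Complex.I_im,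
      Complex.ofReal_im, zero_mul, mul_zero, sub_zero, add_zero] at h2
    rw [INT.intX_const_mul, h2, ← mul_assoc] at h1
    refine int_congr h1 fun e x hx => ?_
    have h3 := congrArg Complex.re (hT (a.1 e (e x)))
    rwa [Complex.ofReal_re, Complex.re_ofReal_mul, ← hu e x hx] at h3
  have hq : Fujiki n (Q.comp Φ.toLinearMap) := ⟨κ * B.C, mul_pos hκ B.Cpos, hV⟩
  have hE : QuadraticMap.Equivalent (Q.comp Φ.toLinearMap) Q := ⟨⟨Φ, fun _ => rfl⟩⟩
  have hπ : (2 * Real.pi) ≠ 0 := Real.two_pi_pos.ne'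
  have h1 : ∀ {ι : Type} {L : LineBundle (n + n) V.X ι} {ρ c l}, IsMetric L ρ → Y.C1 L ρ l →
      (ClassOf (curvature L ρ) ((2 * Real.pi) • c) ↔ Φ c = zr l) := by
    intro ι L ρ c l hρ hl
    rw [hC _ _ (h.d11.curv hρ).1, map_smul]
    exact ⟨fun h2 => smul_right_injective _ hπ (AsH.c11_uniq h2 hl.2), fun h2 => h2 ▸ hl.2⟩
  refine ⟨⟨r, (Pi.basisFun ℝ (Fin r)).map Φ.symm, fun c => ?_⟩, ⟨_, hq, fun c hc => ?_, ?_, ?_⟩,
    fun ι L => ⟨?_, ?_⟩⟩
  · rw [hI, Module.Basis.mem_span_iff_repr_mem]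
    refine ⟨fun ⟨l, hl⟩ i => ⟨l i, ?_⟩, fun h2 => ?_⟩
    · simp [hl, Lat.zr]
    · choose l hl using h2
      exact ⟨l, funext fun i => by simpa [Lat.zr] using (hl i).symm⟩
  · obtain ⟨l, hl⟩ := (hI c).1 hc
    refine ⟨∑ i, ∑ j, B.q i j * (l i * l j), ?_⟩
    show Q (Φ c) = _
    rw [hQ, hl]
    simp [qR, Lat.zr]
  · rw [hE.sigPos_eq, s1]
  · rw [hE.sigNeg_eq, s2, Φ.finrank_eq]
    simp
  · obtain ⟨ρ, hρ⟩ := Vale.Agent.P301.H450.exists_metric L
    obtain ⟨l, hl⟩ := h.c1 Y L ρ hρ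
    refine ⟨Φ.symm (zr l), ⟨ρ, hρ, (h1 hρ hl).2 (Φ.apply_symm_apply _)⟩, ?_⟩
    rintro c ⟨ρ', hρ', hc⟩
    have hl' : Y.C1 L ρ' l := ⟨hρ', h.rel.same hl.2 (h.d11.curv hρ').1 (same h.d11 hρ hρ')⟩
    rw [← (h1 hρ' hl').1 hc, Φ.symm_apply_apply]
  · rintro c ⟨ρ, hρ, hc⟩
    obtain ⟨l, hl⟩ := h.c1 Y L ρ hρ
    have h2 := (h1 hρ hl).1 hc
    refine ⟨(hI c).2 ⟨l, h2⟩, fun h3 h4 => syz ι L ρ hρ ?_ ?_⟩
    · refine nefl n r B Y s w p k H ι L ρ l hl fun ε hε => ?_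
      let _ := moduleTopology ℝ (H2 (n + n) V.X)
      have : IsModuleTopology ℝ (H2 (n + n) V.X) := ⟨rfl⟩
      have h5 : Continuous Φ := IsModuleTopology.continuous_of_linearMap Φ.toLinearMap
      have h6 := image_closure_subset_closure_image h5 ⟨c, h3, rfl⟩
      obtain ⟨_, ⟨c', ⟨w', hw, hc'⟩, rfl⟩, h7⟩ := Metric.mem_closure_iff.1 h6 ε hε
      refine ⟨w', Φ c', 1, one_pos, ⟨hw, (hC _ _ (R11.kahler hw)).1 hc'⟩, ?_⟩
      rwa [one_smul, ← h2, ← dist_eq_norm, dist_comm]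
    · have h5 : ∀ {D : Chart (n + n) V.X → Cm (n + n) → ℝ} {I J : ℝ}, IsIntegral D I →
          IsIntegral D J → I = J := fun a b =>
        (INT.intX_eq_of_isIntegral a).symm.trans (INT.intX_eq_of_isIntegral b)
      have h6 : κ * B.C * Q (Φ c) ^ n = 0 := by
        rcases h4 with ⟨q, ⟨C, -, hq'⟩, h0⟩ | ⟨a, rfl, h0⟩
        · obtain ⟨a, rfl⟩ := sur c
          rw [h5 (hV a) (hq' a), h0, zero_pow hn.ne', mul_zero]
        · exact h5 (hV a) h0
      have h7 := (pow_eq_zero_iff hn.ne').1 ((mul_eq_zero.1 h6).resolve_left (mul_pos hκ B.Cpos).ne')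
      rw [h2, hQ] at h7
      exact (h.iso hl).2 h7

end Vale.Agent.P301W
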