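import Vale.Agent.P301W.Pre
import Vale.Agent.P301Z.All
import Vale.Agent.P301Z.Flat

/-!
# P301W: the hypotheses of the assembly
-/

namespace Vale.Agent.P301W

theorem full : Full := Vale.Agent.P301Z.SYZ.full Vale.Agent.P301Z.syz

theorem lat : Vale.Agent.P301Z.Lat.LAT := Vale.Agent.P301Z.Fin0.lat

theorem nefl : Vale.Agent.P301Z.NEFL := Vale.Agent.P301Z.Tp.nefl_of lat

end Vale.Agent.P301W
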