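import Vale.Agent.P301W.St
import Vale.Agent.P301Z.Lat.Pk

/-!
# P301W: the dictionary between real forms and the forms of the block LAT; rows
-/

open scoped Manifold ContDiff Topology ComplexConjugate Matrix
open Vale.Agent.P272.K Vale.Agent.P299.IX Vale.Agent.P299.IX.Fock
open Vale.Agent.P281Z (Mf)
open Vale.Agent.P281Z.Hg Vale.Agent.P301Z.Lat

noncomputable section

namespace Vale.Agent.P301W

variable {d : ℕ}

/-- the value of the real linear function `φ` on `∂/∂z_j` or `∂/∂z̄_j`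
(`dr p f z = cv p (fderiv ℝ f z)`) -/
def cv (p : Fin (d + d)) (φ : Cm d → ℂ) : ℂ :=
  Fin.addCases (motive := fun _ => ℂ)
    (fun j => (φ (Pi.single j 1) - Complex.I * φ (Pi.single j Complex.I)) / 2)
    (fun j => (φ (Pi.single j 1) + Complex.I * φ (Pi.single j Complex.I)) / 2) p

/-- real functions as Fock vectors -/
def t0 (a : Alt d 0) : Fo d := ((a ![] : ℝ) : ℂ) • ev ∅

/-- real one-forms as Fock vectors -/
def t1 (a : Alt d 1) : Fo d := ∑ p, cv p (fun v => ((a ![v] : ℝ) : ℂ)) • (eps p *ᵥ ev ∅)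

/-- the complexified matrix of a real two-form -/
def cm (a : Alt d 2) : Mx (d + d) :=
  Matrix.of fun p q => cv p fun u => cv q fun v => ((a ![u, v] : ℝ) : ℂ)

/-- real two-forms as Fock vectors -/
def t2 (a : Alt d 2) : Fo d := tw (cm a)

/-- the pointwise dictionary in degree `k` -/
structure Tk (d k : ℕ) (t : Alt d k → Fo d) : Prop where
  lin : ∃ T : Alt d k →L[ℝ] Fo d, ∀ a, T a = t a
  inv : ∃ F : Fo d →L[ℝ] Alt d k, (∀ a, F (t a) = a) ∧
    ∀ u, t (F u) = (2 : ℂ)⁻¹ • (dg k *ᵥ u + cjv (dg k *ᵥ u))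
  dg : ∀ a, dg k *ᵥ t a = t a
  cj : ∀ a, cjv (t a) = t a
  ch : ∀ (a : Alt d k) (ψ : Cm d → Cm d) z, DifferentiableAt ℝ ψ z →
    t (a.compContinuousLinearMap (fderiv ℝ ψ z)) = lam (jc ψ z) *ᵥ t a

/-- row T0 -/
def T0 : Prop := ∀ d, Tk d 0 t0

/-- row T1 -/
def T1 : Prop := ∀ d, Tk d 1 t1

/-- row T2 -/
def T2 : Prop := ∀ d, Tk d 2 t2

/-- row D0 -/
def D0 : Prop := ∀ d (f : Cm d → Alt d 0) z, DifferentiableAt ℝ f z →
  dT (fun y => t0 (f y)) z = t1 (extDeriv f z)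

/-- row D1 -/
def D1 : Prop := ∀ d (b : Cm d → Alt d 1) z, DifferentiableAt ℝ b z →
  dT (fun y => t1 (b y)) z = t2 (extDeriv b z)

/-- row D2 -/
def D2 : Prop := ∀ d (a : Cm d → Alt d 2) z, DifferentiableAt ℝ a z →
  (dT (fun y => t2 (a y)) z = 0 ↔ extDeriv a z = 0)

/-- row F11 -/
def F11 : Prop := ∀ d (a : Alt d 2) (W : Mx d), t2 a = f11 W ↔ ∀ u v : Cm d, (a ![u, v] : ℂ) =
  Complex.I * ∑ j, ∑ k, W j k * (u j * conj (v k) - v j * conj (u k))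

/-- row TOPP -/
def TOPP : Prop := ∀ d, ∃ κ : ℝ, 0 < κ ∧ ∀ a : Alt d 2, ((top a : ℝ) : ℂ) = κ * pw (t2 a)

/-- row LOC: real forms on an open set extend, near a closed subset, to forms of the complex -/
def LOC : Prop := ∀ d k (t : Alt d k → Fo d), Tk d k t → ∀ (V : Mf d) (U K : Set V.X)
  (a : Chart d V.X → Cm d → Alt d k), IsOpen U → IsClosed K → K ⊆ U → IsForm U a →
  ∃ (u : Fs V) (O : Set V.X), (dR V).dg k u = u ∧ IsOpen O ∧ K ⊆ O ∧ O ⊆ U ∧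
    ∀ e x, At e x → x ∈ O → vl u e (e x) = t (a e (e x))

/-- row BACK: the real part of a form of the complex -/
def BACK : Prop := ∀ d k (t : Alt d k → Fo d), Tk d k t → ∀ (V : Mf d) (u : Fs V),
  (dR V).dg k u = u → ∃ a : Chart d V.X → Cm d → Alt d k, IsForm Set.univ a ∧
    ∀ e x, At e x → t (a e (e x)) = vl ((2 : ℂ)⁻¹ • (u + (dR V).cj u)) e (e x)

/-- `u` is the real closed form `a` -/
def Rp {V : Mf d} (a : Z2 d V.X) (u : Fs V) : Prop :=
  ∀ e x, At e x → vl u e (e x) = t2 (a.1 e (e x))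

/-- the tools -/
structure TL : Prop where
  t0 : T0
  t1 : T1
  t2 : T2
  d0 : D0
  d1 : D1
  d2 : D2
  loc : LOC
  back : BACK

/-- row REP: closed and exact forms correspond -/
def REP : Prop := TL → ∀ d (V : Mf d),
  (∀ a : Z2 d V.X, ∃ u, Rp a u) ∧ (∀ u, Cl2 V u → ReF V u → ∃ a : Z2 d V.X, Rp a u) ∧
  ∀ (a : Z2 d V.X) u, Rp a u → Cl2 V u ∧ ReF V u ∧ (cls a = 0 ↔ Ex2 V u)

/-- row ISO: the marking identifies the cohomology -/
def ISO : Prop := TL → REP → ∀ d r (V : Mf d) (m : Mark V r), ∃ Φ : H2 d V.X ≃ₗ[ℝ] (Fin r → ℝ),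
  ∀ (a : Z2 d V.X) u, Rp a u → m.c u = rc (Φ (cls a))

/-- row WE1 -/
def WE1 : Prop := TL → ∀ d (V : Mf d) (a : Z2 d V.X) u, Rp a u → Weil a → IntF V u

/-- row WE2 -/
def WE2 : Prop := TL → ∀ d (V : Mf d) (a : Z2 d V.X) u, Rp a u → IntF V u → Weil a

/-- row SIGN: the signature -/
def SIGN : Prop := ∀ n r (B : BB n r), ∃ Q : QuadraticForm ℝ (Fin r → ℝ),
  (∀ v, Q v = qR B.q v v) ∧ sigPos Q = 3 ∧ sigNeg Q + 3 = r

end Vale.Agent.P301W
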