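import Vale.Agent.P301W.Asm
import Vale.Agent.P301W59.T01
import Vale.Agent.P301W59.Rep
import Vale.Agent.P301W13.T2
import Vale.Agent.P301W13.D2
import Vale.Agent.P301W93.Top
import Vale.Agent.P301W93.Loc
import Vale.Agent.P301W93.We1
import Vale.Agent.P301W93.We2
import Vale.Agent.P301W38.Sign

/-!
# P301W: the statement from the lattice block and the analytic form of the theorem
-/

open scoped Manifold ContDiff
open Vale.Agent.P272.K Vale.Agent.P301.H599 Vale.Agent.P301.H99 Vale.Agent.P301Z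
open Vale.Agent.P301Z.Lat

namespace Vale.Agent.P301W

/-- the analytic form of the theorem -/
def Full : Prop :=
  ∀ (d : ℕ) (X : Type) [TopologicalSpace X] [T2Space X] [CompactSpace X] [SimplyConnectedSpace X]
    [ChartedSpace (Cm d) X] [IsManifold 𝓘(ℂ, Cm d) ω X]
    (w s : Chart d X → Cm d → Matrix (Fin d) (Fin d) ℂ), IsSymplectic d X w s →
    ∀ (ι : Type) (L : LineBundle d X ι) (ρ : ι → X → ℝ), IsMetric L ρ → Nef w L ρ →
      Isotropic L ρ → Semiample L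

theorem tools : TL :=
  ⟨P301W59.t0_row, P301W59.t1_row, P301W13.t2_row, P301W59.d0_row, P301W59.d1_row, P301W13.d2_row,
    P301W93.loc, P301W93.back⟩

theorem concl (h : LAT) (nefl : NEFL) (hf : Full) (n : ℕ) (hn : 1 ≤ n) (d : ℕ) (hd : d = n + n)
    (X : Type) [TopologicalSpace X] [T2Space X] [CompactSpace X] [SimplyConnectedSpace X]
    [ChartedSpace (Cm d) X] [IsManifold 𝓘(ℂ, Cm d) ω X]
    (w s : Chart d X → Cm d → Matrix (Fin d) (Fin d) ℂ) (hs : IsSymplectic d X w s) :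
    Concl n d X := by
  subst hd
  exact asm h nefl tools P301W13.f11 P301W93.topp P301W59.rep_row P301W59.iso_row P301W93.we1
    P301W93.we2 P301W38.sign n hn ⟨X⟩ ‹_› w s hs (hf _ X w s hs)

theorem literal_of (h : LAT) (nefl : NEFL) (hf : Full) :
    ∀ (n : ℕ), 1 ≤ n → ∀ (X : Type) [TopologicalSpace X] [T2Space X] [CompactSpace X]
      [SimplyConnectedSpace X] [ChartedSpace (Cm (2 * n)) X] [IsManifold 𝓘(ℂ, Cm (2 * n)) ω X]
      (w s : Chart (2 * n) X → Cm (2 * n) → Matrix (Fin (2 * n)) (Fin (2 * n)) ℂ),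
      IsSymplectic (2 * n) X w s →
      (∃ (r : ℕ) (b : Module.Basis (Fin r) ℝ (H2 (2 * n) X)),
        ∀ c, Integral c ↔ c ∈ Submodule.span ℤ (Set.range b)) ∧
      (∃ q : QuadraticForm ℝ (H2 (2 * n) X), IsBBF n q) ∧
      ∀ (ι : Type) (L : LineBundle (2 * n) X ι), (∃! c, IsC1 L c) ∧ ∀ c, IsC1 L c → Integral c ∧
        ∀ q : QuadraticForm ℝ (H2 (2 * n) X), Fujiki n q → c ∈ NefCone (2 * n) X → q c = 0 →
          ∃ m : ℕ, 0 < m ∧ ∀ x : X, ∃ f : ι → X → ℂ, Sec L m f ∧ ∃ i, x ∈ L.U i ∧ f i x ≠ 0 := by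
  intro n hn X _ _ _ _ _ _ w s hs
  obtain ⟨h1, h2, h3⟩ := concl h nefl hf n hn _ (two_mul n) X w s hs
  exact ⟨h1, h2, fun ι L => ⟨(h3 ι L).1, fun c hc => ⟨((h3 ι L).2 c hc).1,
    fun q hq h4 h5 => ((h3 ι L).2 c hc).2 h4 (.inl ⟨q, hq, h5⟩)⟩⟩⟩

end Vale.Agent.P301W
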