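import Vale.Agent.P301.H99.Lim
import Mathlib.Analysis.Calculus.DifferentialForm.Basic
import Mathlib.LinearAlgebra.QuadraticForm.Signature
import Mathlib.Topology.Algebra.Module.ModuleTopology

/-!
# P301: de Rham cohomology in degree two, Kähler cone, first Chern class, Beauville form
-/

open scoped Manifold ContDiff Topology ComplexConjugate
open Vale.Agent.P272.K Vale.Agent.P301.H599

noncomputable section

namespace Vale.Agent.P301W

/-- real `k`-forms at a point of `ℂ^d` -/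
abbrev Alt (d k : ℕ) : Type := Cm d [⋀^Fin k]→L[ℝ] ℝ

variable {d : ℕ} {X : Type} [TopologicalSpace X] [ChartedSpace (Cm d) X]

/-- `a` is a smooth real `k`-form on the open set `U`, given in the charts of `X`. -/
structure IsForm (U : Set X) {k : ℕ} (a : Chart d X → Cm d → Alt d k) : Prop where
  smooth : ∀ e x, At e x → x ∈ U → ContDiffAt ℝ ∞ (a e) (e x)
  change : ∀ e e' x, At e x → At e' x → x ∈ U → a e (e x) =
    (a e' (e' x)).compContinuousLinearMap (fderiv ℝ (fun z => e' (e.symm z)) (e x))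

theorem IsForm.add {U : Set X} {k : ℕ} {a b : Chart d X → Cm d → Alt d k} (ha : IsForm U a)
    (hb : IsForm U b) : IsForm U (a + b) :=
  ⟨fun e x h u => (ha.1 e x h u).add (hb.1 e x h u), fun e e' x h h' u => by
    rw [Pi.add_apply, Pi.add_apply, ha.2 e e' x h h' u, hb.2 e e' x h h' u]
    rfl⟩

theorem IsForm.smul {U : Set X} {k : ℕ} {a : Chart d X → Cm d → Alt d k} (c : ℝ)
    (ha : IsForm U a) : IsForm U (c • a) :=
  ⟨fun e x h u => (ha.1 e x h u).const_smul c, fun e e' x h h' u => by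
    rw [Pi.smul_apply, Pi.smul_apply, ha.2 e e' x h h' u]
    rfl⟩

theorem IsForm.zero {U : Set X} {k : ℕ} : IsForm U (0 : Chart d X → Cm d → Alt d k) :=
  ⟨fun _ _ _ _ => contDiffAt_const, fun _ _ _ _ _ _ => rfl⟩

theorem IsForm.diff {k : ℕ} {a : Chart d X → Cm d → Alt d k} (ha : IsForm Set.univ a)
    {e : Chart d X} {x : X} (h : At e x) : DifferentiableAt ℝ (a e) (e x) :=
  (ha.1 e x h trivial).differentiableAt (by simp)

theorem extDeriv_zero {k : ℕ} (z : Cm d) : extDeriv (0 : Cm d → Alt d k) z = 0 := by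
  rw [← zero_smul ℝ (0 : Cm d → Alt d k), extDeriv_smul, zero_smul]

variable (d X) in
/-- closed smooth real `2`-forms on `X` -/
def Closed : Submodule ℝ (Chart d X → Cm d → Alt d 2) where
  carrier := {a | IsForm Set.univ a ∧ ∀ e x, At e x → extDeriv (a e) (e x) = 0}
  add_mem' ha hb := ⟨ha.1.add hb.1, fun e x h => by
    rw [Pi.add_apply, extDeriv_add (ha.1.diff h) (hb.1.diff h), ha.2 e x h, hb.2 e x h, add_zero]⟩
  zero_mem' := ⟨.zero, fun _ _ _ => extDeriv_zero _⟩
  smul_mem' c _ ha := ⟨ha.1.smul c, fun e x h => by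
    rw [Pi.smul_apply, extDeriv_smul, ha.2 e x h, smul_zero]⟩

variable (d X) in
/-- the vector space of the closed `2`-forms -/
def Z2 : Type := Closed d X

instance : AddCommGroup (Z2 d X) := (Closed d X).addCommGroup

instance : Module ℝ (Z2 d X) := (Closed d X).module

variable (d X) in
/-- exact `2`-forms: exterior derivatives of smooth real `1`-forms on `X` -/
def B2 : Submodule ℝ (Z2 d X) where
  carrier := {a | ∃ b : Chart d X → Cm d → Alt d 1, IsForm Set.univ b ∧
    ∀ e x, At e x → a.1 e (e x) = extDeriv (b e) (e x)}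
  add_mem' := fun ⟨b, hb, h⟩ ⟨c, hc, h'⟩ => ⟨b + c, hb.add hc, fun e x hx => by
    rw [Pi.add_apply, extDeriv_add (hb.diff hx) (hc.diff hx), ← h e x hx, ← h' e x hx]
    rfl⟩
  zero_mem' := ⟨0, .zero, fun _ _ _ => (extDeriv_zero _).symm⟩
  smul_mem' := fun c _ ⟨b, hb, h⟩ => ⟨c • b, hb.smul c, fun e x hx => by
    rw [Pi.smul_apply, extDeriv_smul, ← h e x hx]
    rfl⟩

variable (d X) in
/-- the de Rham cohomology `H²(X, ℝ)` -/
abbrev H2 : Type := Z2 d X ⧸ B2 d X

/-- the class of a closed form -/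
def cls (a : Z2 d X) : H2 d X := Submodule.Quotient.mk a

/-- `c` is the class of the real form `i Σ w_{jk} dz_j ∧ dz̄_k`. -/
def ClassOf (w : Chart d X → Cm d → Matrix (Fin d) (Fin d) ℂ) (c : H2 d X) : Prop :=
  ∃ a : Z2 d X, cls a = c ∧ ∀ e x, At e x → ∀ u v : Cm d, (a.1 e (e x) ![u, v] : ℂ) =
    Complex.I * ∑ j, ∑ k, w e (e x) j k * (u j * conj (v k) - v j * conj (u k))

variable (d X) in
/-- the Kähler cone: the classes of the fundamental forms of the Kähler metrics -/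
def KahlerCone : Set (H2 d X) := {c | ∃ w, IsKahler w ∧ ClassOf w c}

variable (d X) in
/-- its closure, for the topology of the real vector space `H²(X, ℝ)` -/
def NefCone : Set (H2 d X) := @closure _ (moduleTopology ℝ (H2 d X)) (KahlerCone d X)

/-- `c = c₁(L)`, the class of the curvature form of a metric divided by `2π` (Chern-Weil) -/
def IsC1 {ι : Type} (L : LineBundle d X ι) (c : H2 d X) : Prop :=
  ∃ ρ, IsMetric L ρ ∧ ClassOf (curvature L ρ) ((2 * Real.pi) • c)

/-- for an open cover, `a = d b_i` on `U_i`, `b_i - b_j = d f_ij` on `U_i ∩ U_j`, and the Čech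
cocycle `f_ij + f_jk - f_ik` has integer values -/
def Weil (a : Z2 d X) : Prop :=
  ∃ (ι : Type) (U : ι → Set X) (b : ι → Chart d X → Cm d → Alt d 1)
    (f : ι → ι → Chart d X → Cm d → Alt d 0), (∀ i, IsOpen (U i)) ∧ (∀ x, ∃ i, x ∈ U i) ∧
    (∀ i, IsForm (U i) (b i)) ∧ (∀ i j, IsForm (U i ∩ U j) (f i j)) ∧
    ∀ e x, At e x → ∀ i, x ∈ U i → a.1 e (e x) = extDeriv (b i e) (e x) ∧ ∀ j, x ∈ U j →
      b i e (e x) - b j e (e x) = extDeriv (f i j e) (e x) ∧ ∀ k, x ∈ U k →
        ∃ m : ℤ, (f i j e (e x) + f j k e (e x) - f i k e (e x)) ![] = m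

/-- `c` is in the image of `H²(X, ℤ)` (Čech - de Rham isomorphism) -/
def Integral (c : H2 d X) : Prop := ∃ a : Z2 d X, cls a = c ∧ Weil a

/-- the real basis `∂/∂x_j`, `∂/∂y_j` of `ℂ^d` -/
def bas (p : Fin d × Fin 2) : Cm d := Pi.single p.1 (![1, Complex.I] p.2)

/-- the value of `a ∧ … ∧ a` (`d` factors) on `∂/∂x_1, ∂/∂y_1, …, ∂/∂x_d, ∂/∂y_d` -/
def top (a : Alt d 2) : ℝ := (2 ^ d)⁻¹ * ∑ σ : Equiv.Perm (Fin d × Fin 2),
  (Equiv.Perm.sign σ : ℤ) * ∏ i, a ![bas (σ (i, 0)), bas (σ (i, 1))]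

/-- Fujiki's relation `∫ a^d = c q(a)^n` for all closed `2`-forms `a`, with `c > 0` -/
def Fujiki (n : ℕ) (q : QuadraticForm ℝ (H2 d X)) : Prop :=
  ∃ c : ℝ, 0 < c ∧ ∀ a : Z2 d X, IsIntegral (fun e z => top (a.1 e z)) (c * q (cls a) ^ n)

/-- `q` is integral, nondegenerate of signature `(3, b₂ - 3)`, and satisfies Fujiki's relation -/
structure IsBBF (n : ℕ) (q : QuadraticForm ℝ (H2 d X)) : Prop where
  fujiki : Fujiki n q
  int : ∀ c, Integral c → ∃ m : ℤ, q c = m
  pos : sigPos q = 3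
  neg : sigNeg q + 3 = Module.finrank ℝ (H2 d X)

end Vale.Agent.P301W
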